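import Vale.Agent.P304.Final2

namespace Vale.Agent.Results.P304.LogSq

open MeasureTheory Vale.Agent.P304

/-- There is an absolute constant `C` such that for every `k ≥ 2`, every metric space `X` and all
initial positions `s`, some randomized online policy (a probability space together with a
measurable family of deterministic online policies) is `C (log k)^2`-competitive against
oblivious adversaries. -/
theorem result.{u} :
    ∃ C : ℝ, ∀ k : ℕ, 2 ≤ k → ∀ (X : Type u) [MetricSpace X] (s : Fin k → X),
      ∃ (Ω : Type u) (_ : MeasurableSpace Ω) (P : Measure Ω) (_ : IsProbabilityMeasure P)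
        (A : Ω → List X → Fin k) (B : ℝ),
        (∀ l, Measurable fun ω => A ω l) ∧
        ∀ σ : List X, Integrable (fun ω => cost (A ω) s σ) P ∧
          ∫ ω, cost (A ω) s σ ∂P ≤ C * Real.log k ^ 2 * opt s σ + B :=
  main_of_bayes2 bayes2

end Vale.Agent.Results.P304.LogSq
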